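import Vale.Agent.P050.Lsm.Main

/-!
P050: Sidorenko's inequality for every bipartite graph and (1) every log-supermodular weighted
host on two finite distributive lattices, (2) every weighted host with two vertex types on one side.
-/

namespace Vale.Agent.Results.P050.LatticeHosts

theorem result :
    (∀ (A B : Type) [Fintype A] [Fintype B] [DecidableEq A] [DecidableEq B] (E : Finset (A × B))
      (L M : Type) [DistribLattice L] [Fintype L] [DistribLattice M] [Fintype M]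
      (u : L → ℝ) (v : M → ℝ) (W : L → M → ℝ),
      (∀ x, 0 ≤ u x) → (∀ x x', u x * u x' ≤ u (x ⊓ x') * u (x ⊔ x')) → (∑ x, u x = 1) →
      (∀ y, 0 ≤ v y) → (∀ y y', v y * v y' ≤ v (y ⊓ y') * v (y ⊔ y')) → (∑ y, v y = 1) →
      (∀ x y, 0 ≤ W x y) →
      (∀ x x' y y', W x y * W x' y' ≤ W (x ⊓ x') (y ⊓ y') * W (x ⊔ x') (y ⊔ y')) →
      (∑ x, ∑ y, u x * v y * W x y) ^ E.card ≤
        ∑ σ : A → L, ∑ τ : B → M,
          (∏ a, u (σ a)) * (∏ b, v (τ b)) * ∏ e ∈ E, W (σ e.1) (τ e.2)) ∧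
    (∀ (A B : Type) [Fintype A] [Fintype B] [DecidableEq A] [DecidableEq B] (E : Finset (A × B))
      (Y : Type) [Fintype Y] (u : Fin 2 → ℝ) (v : Y → ℝ) (W : Fin 2 → Y → ℝ),
      (∀ x, 0 ≤ u x) → (∑ x, u x = 1) → (∀ y, 0 ≤ v y) → (∑ y, v y = 1) →
      (∀ x y, 0 ≤ W x y) →
      (∑ x, ∑ y, u x * v y * W x y) ^ E.card ≤
        ∑ σ : A → Fin 2, ∑ τ : B → Y,
          (∏ a, u (σ a)) * (∏ b, v (τ b)) * ∏ e ∈ E, W (σ e.1) (τ e.2)) :=
  ⟨fun _ _ _ _ _ _ E _ _ _ _ _ _ _ _ _ hu hu' hu1 hv hv' hv1 hW hW' =>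
    Vale.Agent.P050.Lsm.sidorenko_lsm E ⟨hu, hu'⟩ ⟨hv, hv'⟩
      ⟨fun z => hW z.1 z.2, fun z z' => hW' z.1 z'.1 z.2 z'.2⟩ hu1 hv1,
   fun _ _ _ _ _ _ E _ _ _ _ _ hu hu1 hv hv1 hW =>
    Vale.Agent.P050.Lsm.sidorenko_two E hu hv hW hu1 hv1⟩

end Vale.Agent.Results.P050.LatticeHosts
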