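import Vale.Agent.P050.Kernel

/-!
P050: Sidorenko's inequality holds on an `L^∞` ball around the constant kernel whose radius is
`1 / (2^19 Δ (g (1 + log₂ Δ) + 1 + log₂ m))` for a bipartite graph with `m` edges, maximum degree at
most `Δ` and a cycle of length at most `2 g`.
-/

namespace Vale.Agent.Results.P050.LocalRadius

open MeasureTheory

theorem result :
    ∀ (V : Type) [Fintype V] [DecidableEq V] (G : SimpleGraph V) [DecidableRel G.Adj],
      G.IsBipartite → ∀ Δ g : ℕ, (∀ v, G.degree v ≤ Δ) →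
      (∃ (v : V) (p : G.Walk v v), p.IsCycle ∧ p.length ≤ 2 * g) →
      ∀ (Ω : Type) [MeasurableSpace Ω] (μ : Measure Ω) [IsProbabilityMeasure μ]
        (W : Ω → Ω → ℝ) (hW : ∀ a b, W a b = W b a),
        Measurable (Function.uncurry W) →
        (∀ᵐ p ∂μ.prod μ, |W p.1 p.2 - 1| ≤
          1 / (2 ^ 19 * ((Δ * (g * (1 + Nat.log 2 Δ) + 1 + Nat.log 2 G.edgeFinset.card) : ℕ) : ℝ))) →
        ∫ p, W p.1 p.2 ∂μ.prod μ = 1 →
        1 ≤ ∫ x : V → Ω, ∏ e ∈ G.edgeFinset,
          Sym2.lift ⟨fun u v => W (x u) (x v), fun u v => hW (x u) (x v)⟩ e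
            ∂Measure.pi fun _ => μ :=
  fun _ _ _ _ _ hbip _ _ hdeg hcyc _ _ μ _ _ hW hm hb hint =>
    _root_.P050.one_le_integral_ae μ hbip hdeg hcyc hW hm hb hint

end Vale.Agent.Results.P050.LocalRadius
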